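import Vale.Agent.Lib.P226.Cell

/-!
# P226 (Gaussian propeller conjecture): the largest cell of a counterexample

For every dimension `d` and every finite family of pairwise disjoint measurable subsets of `ℝ^d`
(in particular every measurable partition), the propeller inequality
`∑ i, ‖∫_{A i} x dγ‖² ≤ 9 / (8 π)` holds as soon as either every cell has standard Gaussian
measure at most `1/7`, or some cell has standard Gaussian measure at least `0.51`.
Hence in any counterexample to the propeller conjecture the largest cell has measure strictly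
between `1/7` and `0.51`.
-/

open MeasureTheory ProbabilityTheory Real

namespace Vale.Agent.Results.P226.LargestCell

theorem result (d k : ℕ) (A : Fin k → Set (EuclideanSpace ℝ (Fin d)))
    (hmeas : ∀ i, MeasurableSet (A i))
    (hdisj : ∀ i j, i ≠ j → Disjoint (A i) (A j))
    (hprofile : (∀ i, (stdGaussian (EuclideanSpace ℝ (Fin d))).real (A i) ≤ 1 / 7) ∨
      (∃ i, 0.51 ≤ (stdGaussian (EuclideanSpace ℝ (Fin d))).real (A i))) :
    ∑ i, ‖∫ x in A i, x ∂(stdGaussian (EuclideanSpace ℝ (Fin d)))‖ ^ 2 ≤ 9 / (8 * π) := by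
  have h2 := Vale.Agent.Lib.P226.sum_measure_le_one d k A hmeas hdisj
  have hc : (0:ℝ) ≤ 9 / (8 * π) := by positivity
  rcases hprofile with hs | ⟨i0, hi0⟩
  · have h1 : ∑ i, ‖∫ x in A i, x ∂(stdGaussian (EuclideanSpace ℝ (Fin d)))‖ ^ 2
        ≤ ∑ i, 9 / (8 * π) * ((stdGaussian (EuclideanSpace ℝ (Fin d))) (A i)).toReal :=
      Finset.sum_le_sum (fun i _ => Vale.Agent.Lib.P226.cell_propeller d (A i) (hs i))
    rw [← Finset.mul_sum] at h1
    nlinarith [mul_le_mul_of_nonneg_left h2 hc]
  · have hi0' : (0.51:ℝ) ≤ ((stdGaussian (EuclideanSpace ℝ (Fin d))) (A i0)).toReal := hi0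
    have hsplit : ∑ i, ‖∫ x in A i, x ∂(stdGaussian (EuclideanSpace ℝ (Fin d)))‖ ^ 2
        = ‖∫ x in A i0, x ∂(stdGaussian (EuclideanSpace ℝ (Fin d)))‖ ^ 2
          + ∑ i ∈ Finset.univ.erase i0,
              ‖∫ x in A i, x ∂(stdGaussian (EuclideanSpace ℝ (Fin d)))‖ ^ 2 :=
      (Finset.add_sum_erase Finset.univ _ (Finset.mem_univ i0)).symm
    have hsplit2 : ∑ i, ((stdGaussian (EuclideanSpace ℝ (Fin d))) (A i)).toReal
        = ((stdGaussian (EuclideanSpace ℝ (Fin d))) (A i0)).toReal
          + ∑ i ∈ Finset.univ.erase i0, ((stdGaussian (EuclideanSpace ℝ (Fin d))) (A i)).toReal :=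
      (Finset.add_sum_erase Finset.univ _ (Finset.mem_univ i0)).symm
    have hbig := Vale.Agent.Lib.P226.cell_half d (A i0)
    have hrest : ∑ i ∈ Finset.univ.erase i0,
          ‖∫ x in A i, x ∂(stdGaussian (EuclideanSpace ℝ (Fin d)))‖ ^ 2
        ≤ ∑ i ∈ Finset.univ.erase i0,
          0.405 * ((stdGaussian (EuclideanSpace ℝ (Fin d))) (A i)).toReal :=
      Finset.sum_le_sum (fun i _ => Vale.Agent.Lib.P226.cell_universal d (A i))
    rw [← Finset.mul_sum] at hrest
    have hrest2 : ∑ i ∈ Finset.univ.erase i0,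
        ((stdGaussian (EuclideanSpace ℝ (Fin d))) (A i)).toReal ≤ 0.49 := by linarith
    have hpi := Real.pi_lt_d6
    have hpos : (0:ℝ) < π := Real.pi_pos
    have hnum : 1 / (2 * π) + 0.405 * 0.49 ≤ 9 / (8 * π) := by
      rw [div_add' _ _ _ (by positivity), div_le_div_iff₀ (by positivity) (by positivity)]
      nlinarith
    rw [hsplit]
    nlinarith [hbig, hrest, hrest2, hnum]

end Vale.Agent.Results.P226.LargestCell
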