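import Vale.Agent.Lib.P226.Cell

/-!
# P226 (Gaussian propeller conjecture): partitions into small cells

For every dimension `d` and every family of pairwise disjoint measurable subsets of `ℝ^d`
(in particular every measurable partition) each of which has standard Gaussian measure at most
`1/7`, the propeller inequality holds: the sum of the squared Euclidean norms of the
unnormalised Gaussian first moments of the cells is at most `9 / (8 π)`.
-/

open MeasureTheory ProbabilityTheory Real

namespace Vale.Agent.Results.P226.SmallCells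

theorem result (d k : ℕ) (A : Fin k → Set (EuclideanSpace ℝ (Fin d)))
    (hmeas : ∀ i, MeasurableSet (A i))
    (hdisj : ∀ i j, i ≠ j → Disjoint (A i) (A j))
    (hsmall : ∀ i, stdGaussian (EuclideanSpace ℝ (Fin d)) (A i) ≤ 1 / 7) :
    ∑ i, ‖∫ x in A i, x ∂(stdGaussian (EuclideanSpace ℝ (Fin d)))‖ ^ 2 ≤ 9 / (8 * π) := by
  have hs : ∀ i, ((stdGaussian (EuclideanSpace ℝ (Fin d))) (A i)).toReal ≤ 1 / 7 := by
    intro i
    have h := ENNReal.toReal_mono (by norm_num) (hsmall i)
    have e : ((1:ENNReal) / 7).toReal = 1 / 7 := by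
      rw [ENNReal.toReal_div]; simp
    rw [e] at h
    exact h
  have h1 : ∑ i, ‖∫ x in A i, x ∂(stdGaussian (EuclideanSpace ℝ (Fin d)))‖ ^ 2
      ≤ ∑ i, 9 / (8 * π) * ((stdGaussian (EuclideanSpace ℝ (Fin d))) (A i)).toReal :=
    Finset.sum_le_sum (fun i _ => Vale.Agent.Lib.P226.cell_propeller d (A i) (hs i))
  have h2 := Vale.Agent.Lib.P226.sum_measure_le_one d k A hmeas hdisj
  rw [← Finset.mul_sum] at h1
  have hc : (0:ℝ) ≤ 9 / (8 * π) := by positivity
  nlinarith [mul_le_mul_of_nonneg_left h2 hc]

end Vale.Agent.Results.P226.SmallCells
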