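import Vale.Agent.Lib.P226.Cell

/-!
# P226 (Gaussian propeller conjecture): a universal upper bound

For every dimension `d`, every number of cells `k` and every family of `k` pairwise disjoint
measurable subsets of `ℝ^d` (in particular every measurable partition), the sum of the squared
Euclidean norms of the unnormalised Gaussian first moments of the cells is at most `0.405`.
The conjectured sharp value is `9 / (8 π) ≈ 0.3581`.
-/

open MeasureTheory ProbabilityTheory Real

namespace Vale.Agent.Results.P226.UniversalBound

theorem result (d k : ℕ) (A : Fin k → Set (EuclideanSpace ℝ (Fin d)))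
    (hmeas : ∀ i, MeasurableSet (A i))
    (hdisj : ∀ i j, i ≠ j → Disjoint (A i) (A j)) :
    ∑ i, ‖∫ x in A i, x ∂(stdGaussian (EuclideanSpace ℝ (Fin d)))‖ ^ 2 ≤ 0.405 := by
  have h1 : ∑ i, ‖∫ x in A i, x ∂(stdGaussian (EuclideanSpace ℝ (Fin d)))‖ ^ 2
      ≤ ∑ i, 0.405 * ((stdGaussian (EuclideanSpace ℝ (Fin d))) (A i)).toReal :=
    Finset.sum_le_sum (fun i _ => Vale.Agent.Lib.P226.cell_universal d (A i))
  have h2 := Vale.Agent.Lib.P226.sum_measure_le_one d k A hmeas hdisj
  rw [← Finset.mul_sum] at h1
  linarith

end Vale.Agent.Results.P226.UniversalBound
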